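import Mathlib.Data.Fintype.Card
import Mathlib.Tactic

/-!
# The finite core of the parity-free proof that Borsuk's conjecture fails in dimension 9

`K` is a family of faces on ten colours.  The theorem `fin38` says that no such family satisfies
the following: (H0) subsets of faces are faces, (H1) no four colours contain exactly one triple that
is not a face, (H2) for a face `A` with four colours (facet) and a colour `x` outside `A` some
triple `{x,a,b}` with `a,b` in `A` is not a face, (H3) a triple in a facet lies in at least two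
facets, (H4) any two facets meet, (H5) there is a facet.
-/

namespace P052.H8

section

variable {K : Finset (Fin 10) → Prop}

private lemma set3_12 (a b c : Fin 10) : ({a, b, c} : Finset (Fin 10)) = {b, a, c} := by
  ext x; simp; tauto

private lemma set3_23 (a b c : Fin 10) : ({a, b, c} : Finset (Fin 10)) = {a, c, b} := by
  ext x; simp; tauto

private lemma set4_12 (a b c d : Fin 10) :
    ({a, b, c, d} : Finset (Fin 10)) = {b, a, c, d} := by
  ext x; simp; tauto

private lemma set4_23 (a b c d : Fin 10) :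
    ({a, b, c, d} : Finset (Fin 10)) = {a, c, b, d} := by
  ext x; simp; tauto

private lemma set4_34 (a b c d : Fin 10) :
    ({a, b, c, d} : Finset (Fin 10)) = {a, b, d, c} := by
  ext x; simp; tauto

private lemma f123 (H0 : ∀ A B : Finset (Fin 10), B ⊆ A → K A → K B) {a b c d : Fin 10}
    (h : K {a, b, c, d}) : K {a, b, c} := H0 _ _ (by intro z; simp; tauto) h

private lemma f124 (H0 : ∀ A B : Finset (Fin 10), B ⊆ A → K A → K B) {a b c d : Fin 10}
    (h : K {a, b, c, d}) : K {a, b, d} := H0 _ _ (by intro z; simp; tauto) h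

private lemma f134 (H0 : ∀ A B : Finset (Fin 10), B ⊆ A → K A → K B) {a b c d : Fin 10}
    (h : K {a, b, c, d}) : K {a, c, d} := H0 _ _ (by intro z; simp; tauto) h

private lemma card4 {a b c d : Fin 10} (hab : a ≠ b) (hac : a ≠ c) (had : a ≠ d) (hbc : b ≠ c)
    (hbd : b ≠ d) (hcd : c ≠ d) : ({a, b, c, d} : Finset (Fin 10)).card = 4 := by
  rw [Finset.card_insert_of_notMem, Finset.card_insert_of_notMem, Finset.card_insert_of_notMem,
    Finset.card_singleton] <;> simp <;> tauto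

private lemma erase4 {a b c d : Fin 10} (hab : a ≠ b) (hac : a ≠ c) (had : a ≠ d) :
    ({a, b, c, d} : Finset (Fin 10)).erase a = {b, c, d} := by
  rw [Finset.erase_insert]
  simp only [Finset.mem_insert, Finset.mem_singleton, not_or]
  exact ⟨hab, hac, had⟩

/-- `x` is a twin of `a`: replacing `a` by `x` in the facet `{a,b,c,d}` gives a facet; then the
triples `{x,a,b}`, `{x,a,c}`, `{x,a,d}` are not faces. -/
private lemma twin
    (H0 : ∀ A B : Finset (Fin 10), B ⊆ A → K A → K B)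
    (H1 : ∀ x p q r : Fin 10, x ≠ p → x ≠ q → x ≠ r → p ≠ q → p ≠ r → q ≠ r →
      K {p, q, r} → K {x, p, q} → K {x, q, r} → K {x, p, r})
    (H2 : ∀ (A : Finset (Fin 10)) (x : Fin 10), K A → A.card = 4 → x ∉ A →
      ∃ a ∈ A, ∃ b ∈ A, a ≠ b ∧ ¬ K {x, a, b})
    {a b c d x : Fin 10} (hab : a ≠ b) (hac : a ≠ c) (had : a ≠ d) (hbc : b ≠ c) (hbd : b ≠ d)
    (hcd : c ≠ d) (hxa : x ≠ a) (hxb : x ≠ b) (hxc : x ≠ c) (hxd : x ≠ d)
    (hA : K {a, b, c, d}) (hx : K {x, b, c, d}) : ¬ K {x, a, b} := by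
  intro h
  have hbc' : K {x, b, c} := H0 _ _ (by intro z; simp; tauto) hx
  have hbd' : K {x, b, d} := H0 _ _ (by intro z; simp; tauto) hx
  have hcd' : K {x, c, d} := H0 _ _ (by intro z; simp; tauto) hx
  have hac' : K {x, a, c} :=
    H1 x a b c hxa hxb hxc hab hac hbc (H0 _ _ (by intro z; simp; tauto) hA) h hbc'
  have had' : K {x, a, d} :=
    H1 x a b d hxa hxb hxd hab had hbd (H0 _ _ (by intro z; simp; tauto) hA) h hbd'
  have hcard : ({a, b, c, d} : Finset (Fin 10)).card = 4 := card4 hab hac had hbc hbd hcd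
  obtain ⟨p, hp, q, hq, hpq, hn⟩ := H2 {a, b, c, d} x hA hcard (by simp; tauto)
  simp only [Finset.mem_insert, Finset.mem_singleton] at hp hq
  rcases hp with rfl | rfl | rfl | rfl <;> rcases hq with rfl | rfl | rfl | rfl <;>
    first
    | exact hpq rfl
    | exact hn h
    | exact hn hac'
    | exact hn had'
    | exact hn hbc'
    | exact hn hbd'
    | exact hn hcd'
    | (rw [set3_23] at hn; first
        | exact hn h
        | exact hn hac'
        | exact hn had'
        | exact hn hbc'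
        | exact hn hbd'
        | exact hn hcd')

/-- The ten colours in the final configuration: the facet `{a,b,c,d}`, the twins `xa,xb,xc,xd` and
the two remaining colours `y,y'`. -/
private structure Conf (K : Finset (Fin 10) → Prop) (a b c d xa xb xc xd y y' : Fin 10) :
    Prop where
  nod : [a, b, c, d, xa, xb, xc, xd, y, y'].Nodup
  all : ∀ z : Fin 10, z ∈ [a, b, c, d, xa, xb, xc, xd, y, y']
  f0 : K {a, b, c, d}
  fa : K {xa, b, c, d}
  fb : K {xb, a, c, d}
  fc : K {xc, a, b, d}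
  fd : K {xd, a, b, c}

private lemma Conf.swap12 {a b c d xa xb xc xd y y' : Fin 10}
    (h : Conf K a b c d xa xb xc xd y y') : Conf K b a c d xb xa xc xd y y' where
  nod := by
    have := h.nod
    simp only [List.nodup_cons, List.mem_cons, List.not_mem_nil, or_false, not_or] at this ⊢
    grind
  all := by
    intro z
    have := h.all z
    simp only [List.mem_cons, List.not_mem_nil, or_false] at this ⊢
    tauto
  f0 := by rw [set4_12]; exact h.f0
  fa := h.fb
  fb := h.fa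
  fc := by rw [set4_23]; exact h.fc
  fd := by rw [set4_23]; exact h.fd

private lemma Conf.swap23 {a b c d xa xb xc xd y y' : Fin 10}
    (h : Conf K a b c d xa xb xc xd y y') : Conf K a c b d xa xc xb xd y y' where
  nod := by
    have := h.nod
    simp only [List.nodup_cons, List.mem_cons, List.not_mem_nil, or_false, not_or] at this ⊢
    grind
  all := by
    intro z
    have := h.all z
    simp only [List.mem_cons, List.not_mem_nil, or_false] at this ⊢
    tauto
  f0 := by rw [set4_23]; exact h.f0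
  fa := by rw [set4_23]; exact h.fa
  fb := h.fc
  fc := h.fb
  fd := by rw [set4_34]; exact h.fd

private lemma Conf.swap34 {a b c d xa xb xc xd y y' : Fin 10}
    (h : Conf K a b c d xa xb xc xd y y') : Conf K a b d c xa xb xd xc y y' where
  nod := by
    have := h.nod
    simp only [List.nodup_cons, List.mem_cons, List.not_mem_nil, or_false, not_or] at this ⊢
    grind
  all := by
    intro z
    have := h.all z
    simp only [List.mem_cons, List.not_mem_nil, or_false] at this ⊢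
    tauto
  f0 := by rw [set4_34]; exact h.f0
  fa := by rw [set4_34]; exact h.fa
  fb := by rw [set4_34]; exact h.fb
  fc := h.fd
  fd := h.fc

/-- The seven distinctness facts used most. -/
private lemma Conf.ne {a b c d xa xb xc xd y y' : Fin 10}
    (h : Conf K a b c d xa xb xc xd y y') :
    a ≠ b ∧ a ≠ c ∧ a ≠ d ∧ b ≠ c ∧ b ≠ d ∧ c ≠ d ∧ xa ≠ a ∧ xa ≠ b ∧ xa ≠ c ∧ xa ≠ d := by
  have := h.nod
  simp only [List.nodup_cons, List.mem_cons, List.not_mem_nil, or_false, not_or] at this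
  grind

private lemma Conf.xac {a b c d xa xb xc xd y y' : Fin 10}
    (h : Conf K a b c d xa xb xc xd y y') : xa ≠ xc := by
  have := h.nod
  simp only [List.nodup_cons, List.mem_cons, List.not_mem_nil, or_false, not_or] at this
  exact this.2.2.2.2.1.2.1

private lemma Conf.xbd {a b c d xa xb xc xd y y' : Fin 10}
    (h : Conf K a b c d xa xb xc xd y y') : xb ≠ xd := by
  have := h.nod
  simp only [List.nodup_cons, List.mem_cons, List.not_mem_nil, or_false, not_or] at this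
  exact this.2.2.2.2.2.1.2.1

private lemma Conf.zne {a b c d xa xb xc xd y y' z : Fin 10}
    (h : Conf K a b c d xa xb xc xd y y') (hz : z = xb ∨ z = y ∨ z = y') :
    z ≠ xa ∧ z ≠ xc ∧ z ≠ a ∧ z ≠ b ∧ z ≠ c ∧ z ≠ d := by
  have := h.nod
  simp only [List.nodup_cons, List.mem_cons, List.not_mem_nil, or_false, not_or] at this
  rcases hz with rfl | rfl | rfl
  · grind
  · grind
  · grind

private lemma Conf.n1
    (H0 : ∀ A B : Finset (Fin 10), B ⊆ A → K A → K B)
    (H1 : ∀ x p q r : Fin 10, x ≠ p → x ≠ q → x ≠ r → p ≠ q → p ≠ r → q ≠ r →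
      K {p, q, r} → K {x, p, q} → K {x, q, r} → K {x, p, r})
    (H2 : ∀ (A : Finset (Fin 10)) (x : Fin 10), K A → A.card = 4 → x ∉ A →
      ∃ a ∈ A, ∃ b ∈ A, a ≠ b ∧ ¬ K {x, a, b})
    {a b c d xa xb xc xd y y' : Fin 10}
    (h : Conf K a b c d xa xb xc xd y y') : ¬ K {xa, a, b} := by
  obtain ⟨h1, h2, h3, h4, h5, h6, h7, h8, h9, h10⟩ := h.ne
  exact twin H0 H1 H2 h1 h2 h3 h4 h5 h6 h7 h8 h9 h10 h.f0 h.fa

/-- A second facet through the triple `{xa,c,d}`. -/
private lemma Conf.step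
    (H0 : ∀ A B : Finset (Fin 10), B ⊆ A → K A → K B)
    (H1 : ∀ x p q r : Fin 10, x ≠ p → x ≠ q → x ≠ r → p ≠ q → p ≠ r → q ≠ r →
      K {p, q, r} → K {x, p, q} → K {x, q, r} → K {x, p, r})
    (H2 : ∀ (A : Finset (Fin 10)) (x : Fin 10), K A → A.card = 4 → x ∉ A →
      ∃ a ∈ A, ∃ b ∈ A, a ≠ b ∧ ¬ K {x, a, b})
    (H3 : ∀ (A : Finset (Fin 10)) (a : Fin 10), K A → A.card = 4 → a ∈ A →
      ∃ x, x ∉ A ∧ K (insert x (A.erase a)))
    {a b c d xa xb xc xd y y' : Fin 10}
    (h : Conf K a b c d xa xb xc xd y y') :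
    ∃ z, (z = xb ∨ z = y ∨ z = y') ∧ K {z, xa, c, d} := by
  obtain ⟨h1, h2, h3, h4, h5, h6, h7, h8, h9, h10⟩ := h.ne
  have hcard : ({b, xa, c, d} : Finset (Fin 10)).card = 4 :=
    card4 h8.symm h4 h5 h9 h10 h6
  have hK : K {b, xa, c, d} := by rw [set4_12]; exact h.fa
  obtain ⟨z, hz, hKz⟩ := H3 _ b hK hcard (by simp)
  have herase : ({b, xa, c, d} : Finset (Fin 10)).erase b = {xa, c, d} := erase4 h8.symm h4 h5
  rw [herase] at hKz
  refine ⟨z, ?_, hKz⟩
  -- nonfaces
  have n1 : ¬ K {xa, a, c} := h.swap23.n1 H0 H1 H2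
  have n2 : ¬ K {xc, c, d} := (h.swap23.swap12.swap34.swap23).n1 H0 H1 H2
  have n3 : ¬ K {xd, d, c} := (h.swap34.swap23.swap12.swap34.swap23).n1 H0 H1 H2
  have hmem := h.all z
  simp only [List.mem_cons, List.not_mem_nil, or_false] at hmem
  simp only [Finset.mem_insert, Finset.mem_singleton, not_or] at hz
  rcases hmem with rfl | rfl | rfl | rfl | rfl | rfl | rfl | rfl | rfl | rfl
  · exact absurd (H0 _ _ (by intro w; simp; tauto) hKz) n1
  · exact absurd rfl hz.1
  · exact absurd rfl hz.2.2.1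
  · exact absurd rfl hz.2.2.2
  · exact absurd rfl hz.2.1
  · exact Or.inl rfl
  · exact absurd (H0 _ _ (by intro w; simp; tauto) hKz) n2
  · exact absurd (H0 _ _ (by intro w; simp; tauto) hKz) n3
  · exact Or.inr (Or.inl rfl)
  · exact Or.inr (Or.inr rfl)

/-- For the matching `ab|cd` of the facet, one of the two remaining colours `u` makes both
`{u,a,b}` and `{u,c,d}` faces. -/
private lemma Conf.matching
    (H0 : ∀ A B : Finset (Fin 10), B ⊆ A → K A → K B)
    (H1 : ∀ x p q r : Fin 10, x ≠ p → x ≠ q → x ≠ r → p ≠ q → p ≠ r → q ≠ r →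
      K {p, q, r} → K {x, p, q} → K {x, q, r} → K {x, p, r})
    (H2 : ∀ (A : Finset (Fin 10)) (x : Fin 10), K A → A.card = 4 → x ∉ A →
      ∃ a ∈ A, ∃ b ∈ A, a ≠ b ∧ ¬ K {x, a, b})
    (H3 : ∀ (A : Finset (Fin 10)) (a : Fin 10), K A → A.card = 4 → a ∈ A →
      ∃ x, x ∉ A ∧ K (insert x (A.erase a)))
    (H4 : ∀ A B : Finset (Fin 10), K A → K B → A.card = 4 → B.card = 4 → ¬ Disjoint A B)
    {a b c d xa xb xc xd y y' : Fin 10}
    (h : Conf K a b c d xa xb xc xd y y') :
    ∃ u, (u = y ∨ u = y') ∧ K {u, a, b} ∧ K {u, c, d} := by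
  obtain ⟨z, hz, hKz⟩ := h.step H0 H1 H2 H3
  obtain ⟨w, hw, hKw⟩ := (h.swap23.swap12.swap34.swap23).step H0 H1 H2 H3
  -- `hKw : K {w, xc, a, b}`, `w ∈ {xd, y, y'}`
  have key : z = w := by
    by_contra hne
    obtain ⟨z1, z2, z3, z4, z5, z6⟩ := h.zne hz
    obtain ⟨w1, w2, w3, w4, w5, w6⟩ := (h.swap23.swap12.swap34.swap23).zne hw
    obtain ⟨h1, h2, h3, h4, h5, h6, h7, h8, h9, h10⟩ := h.ne
    obtain ⟨-, -, -, -, -, -, g7, g8, g9, g10⟩ := (h.swap23.swap12.swap34.swap23).ne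
    have c1 : ({z, xa, c, d} : Finset (Fin 10)).card = 4 := card4 z1 z5 z6 h9 h10 h6
    have c2 : ({w, xc, a, b} : Finset (Fin 10)).card = 4 := card4 w1 w5 w6 g9 g10 h1
    refine H4 _ _ hKz hKw c1 c2 ?_
    have hac := h.xac
    simp only [Finset.disjoint_insert_left, Finset.disjoint_singleton_left, Finset.mem_insert,
      Finset.mem_singleton, not_or]
    refine ⟨⟨hne, z2, z3, z4⟩, ⟨w2.symm, hac, h7, h8⟩, ⟨w3.symm, g7.symm, h2.symm, h4.symm⟩,
      ⟨w4.symm, g8.symm, h3.symm, h5.symm⟩⟩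
  subst key
  refine ⟨z, ?_, H0 _ _ (by intro w; simp; tauto) hKw, H0 _ _ (by intro w; simp; tauto) hKz⟩
  rcases hz with h1 | h1 | h1
  · rcases hw with h2 | h2 | h2
    · exact absurd (h1.symm.trans h2) h.xbd
    · exact Or.inl h2
    · exact Or.inr h2
  · exact Or.inl h1
  · exact Or.inr h1

/-- Two matchings cannot be served by the same colour. -/
private lemma clash
    (H0 : ∀ A B : Finset (Fin 10), B ⊆ A → K A → K B)
    (H1 : ∀ x p q r : Fin 10, x ≠ p → x ≠ q → x ≠ r → p ≠ q → p ≠ r → q ≠ r →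
      K {p, q, r} → K {x, p, q} → K {x, q, r} → K {x, p, r})
    (H2 : ∀ (A : Finset (Fin 10)) (x : Fin 10), K A → A.card = 4 → x ∉ A →
      ∃ a ∈ A, ∃ b ∈ A, a ≠ b ∧ ¬ K {x, a, b})
    {a b c d u : Fin 10} (hab : a ≠ b) (hac : a ≠ c) (had : a ≠ d) (hbc : b ≠ c) (hbd : b ≠ d)
    (hcd : c ≠ d) (hua : u ≠ a) (hub : u ≠ b) (huc : u ≠ c) (hud : u ≠ d)
    (hA : K {a, b, c, d}) (k1 : K {u, a, b}) (k2 : K {u, c, d}) (k3 : K {u, a, c})
    (k4 : K {u, b, d}) : False := by
  have k5 : K {u, b, c} :=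
    H1 u b a c hub hua huc hab.symm hbc hac (H0 _ _ (by intro z; simp; tauto) hA)
      (by rw [set3_23]; exact k1) k3
  have k6 : K {u, a, d} :=
    H1 u a b d hua hub hud hab had hbd (H0 _ _ (by intro z; simp; tauto) hA) k1 k4
  have hcard : ({a, b, c, d} : Finset (Fin 10)).card = 4 := card4 hab hac had hbc hbd hcd
  obtain ⟨p, hp, q, hq, hpq, hn⟩ := H2 {a, b, c, d} u hA hcard (by simp; tauto)
  simp only [Finset.mem_insert, Finset.mem_singleton] at hp hq
  rcases hp with rfl | rfl | rfl | rfl <;> rcases hq with rfl | rfl | rfl | rfl <;>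
    first
    | exact hpq rfl
    | exact hn k1
    | exact hn k2
    | exact hn k3
    | exact hn k4
    | exact hn k5
    | exact hn k6
    | (rw [set3_23] at hn; first
        | exact hn k1
        | exact hn k2
        | exact hn k3
        | exact hn k4
        | exact hn k5
        | exact hn k6)

private lemma Conf.false
    (H0 : ∀ A B : Finset (Fin 10), B ⊆ A → K A → K B)
    (H1 : ∀ x p q r : Fin 10, x ≠ p → x ≠ q → x ≠ r → p ≠ q → p ≠ r → q ≠ r →
      K {p, q, r} → K {x, p, q} → K {x, q, r} → K {x, p, r})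
    (H2 : ∀ (A : Finset (Fin 10)) (x : Fin 10), K A → A.card = 4 → x ∉ A →
      ∃ a ∈ A, ∃ b ∈ A, a ≠ b ∧ ¬ K {x, a, b})
    (H3 : ∀ (A : Finset (Fin 10)) (a : Fin 10), K A → A.card = 4 → a ∈ A →
      ∃ x, x ∉ A ∧ K (insert x (A.erase a)))
    (H4 : ∀ A B : Finset (Fin 10), K A → K B → A.card = 4 → B.card = 4 → ¬ Disjoint A B)
    {a b c d xa xb xc xd y y' : Fin 10}
    (h : Conf K a b c d xa xb xc xd y y') : False := by
  obtain ⟨u, hu, u1, u2⟩ := h.matching H0 H1 H2 H3 H4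
  obtain ⟨v, hv, v1, v2⟩ := h.swap23.matching H0 H1 H2 H3 H4
  obtain ⟨w, hw, w1, w2⟩ := h.swap34.swap23.matching H0 H1 H2 H3 H4
  -- u : ab|cd, v : ac|bd, w : ad|bc
  obtain ⟨h1, h2, h3, h4, h5, h6, -⟩ := h.ne
  have hA := h.f0
  have h3' : u = v ∨ u = w ∨ v = w := by
    rcases hu with rfl | rfl <;> rcases hv with rfl | rfl <;> rcases hw with rfl | rfl <;> tauto
  obtain ⟨-, -, ua, ub, uc, ud⟩ := h.zne (Or.inr hu)
  obtain ⟨-, -, va, vb, vc, vd⟩ := h.zne (Or.inr hv)
  rcases h3' with rfl | rfl | rfl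
  · exact clash H0 H1 H2 h1 h2 h3 h4 h5 h6 ua ub uc ud hA u1 u2 v1 v2
  · exact clash H0 H1 H2 h1 h3 h2 h5 h4 h6.symm ua ub ud uc
      (by rw [set4_34]; exact hA) u1 (by rw [set3_23]; exact u2) w1 w2
  · exact clash H0 H1 H2 h2 h3 h1 h6 h4.symm h5.symm va vc vd vb
      (by rw [set4_34, set4_23]; exact hA) v1 (by rw [set3_23]; exact v2) w1
      (by rw [set3_23]; exact w2)

private lemma tw
    (H0 : ∀ A B : Finset (Fin 10), B ⊆ A → K A → K B)
    (H1 : ∀ x p q r : Fin 10, x ≠ p → x ≠ q → x ≠ r → p ≠ q → p ≠ r → q ≠ r →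
      K {p, q, r} → K {x, p, q} → K {x, q, r} → K {x, p, r})
    (H2 : ∀ (A : Finset (Fin 10)) (x : Fin 10), K A → A.card = 4 → x ∉ A →
      ∃ a ∈ A, ∃ b ∈ A, a ≠ b ∧ ¬ K {x, a, b})
    (H3 : ∀ (A : Finset (Fin 10)) (a : Fin 10), K A → A.card = 4 → a ∈ A →
      ∃ x, x ∉ A ∧ K (insert x (A.erase a)))
    (a b c d : Fin 10) (hab : a ≠ b) (hac : a ≠ c) (had : a ≠ d) (hbc : b ≠ c) (hbd : b ≠ d)
    (hcd : c ≠ d) (hK : K {a, b, c, d}) :
    ∃ x, x ≠ a ∧ x ≠ b ∧ x ≠ c ∧ x ≠ d ∧ K {x, b, c, d} ∧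
        ¬ K {x, a, b} ∧ ¬ K {x, a, c} ∧ ¬ K {x, a, d} := by
  have hcard : ({a, b, c, d} : Finset (Fin 10)).card = 4 := card4 hab hac had hbc hbd hcd
  obtain ⟨x, hx, hKx⟩ := H3 _ a hK hcard (by simp)
  have herase : ({a, b, c, d} : Finset (Fin 10)).erase a = {b, c, d} := erase4 hab hac had
  rw [herase] at hKx
  simp only [Finset.mem_insert, Finset.mem_singleton, not_or] at hx
  obtain ⟨hxa, hxb, hxc, hxd⟩ := hx
  refine ⟨x, hxa, hxb, hxc, hxd, hKx, ?_, ?_, ?_⟩
  · exact twin H0 H1 H2 hab hac had hbc hbd hcd hxa hxb hxc hxd hK hKx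
  · exact twin H0 H1 H2 hac hab had hbc.symm hcd hbd hxa hxc hxb hxd
      (by rw [set4_23]; exact hK) (by rw [set4_23]; exact hKx)
  · exact twin H0 H1 H2 had hac hab hcd.symm hbd.symm hbc.symm hxa hxd hxc hxb
      (by rw [set4_23, set4_34, set4_23]; exact hK)
      (by rw [set4_23, set4_34, set4_23]; exact hKx)

private lemma rest {l : List (Fin 10)} (hl : l.Nodup) (hlen : l.length = 8) :
    ∃ y y' : Fin 10, (l ++ [y, y']).Nodup ∧ ∀ z : Fin 10, z ∈ l ++ [y, y'] := by
  have hc : l.toFinset.card = 8 := by rw [List.toFinset_card_of_nodup hl, hlen]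
  have hcompl : (l.toFinsetᶜ).card = 2 := by
    rw [Finset.card_compl, hc]; simp
  obtain ⟨y, y', hyy, hS⟩ := Finset.card_eq_two.1 hcompl
  have hy : y ∉ l := by
    rw [← List.mem_toFinset, ← Finset.mem_compl, hS]; simp
  have hy' : y' ∉ l := by
    rw [← List.mem_toFinset, ← Finset.mem_compl, hS]; simp
  refine ⟨y, y', ?_, ?_⟩
  · rw [List.nodup_append]
    refine ⟨hl, by simpa using hyy, ?_⟩
    intro u hu v hv huv
    simp only [List.mem_cons, List.not_mem_nil, or_false] at hv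
    rcases hv with rfl | rfl
    · exact hy (huv ▸ hu)
    · exact hy' (huv ▸ hu)
  · intro z
    rw [List.mem_append]
    by_cases hz : z ∈ l
    · exact Or.inl hz
    · right
      have : z ∈ (l.toFinsetᶜ) := by simpa using hz
      rw [hS] at this
      simpa using this

end

/-- **Finite core.** -/
theorem fin38 (K : Finset (Fin 10) → Prop)
    (H0 : ∀ A B : Finset (Fin 10), B ⊆ A → K A → K B)
    (H1 : ∀ x p q r : Fin 10, x ≠ p → x ≠ q → x ≠ r → p ≠ q → p ≠ r → q ≠ r →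
      K {p, q, r} → K {x, p, q} → K {x, q, r} → K {x, p, r})
    (H2 : ∀ (A : Finset (Fin 10)) (x : Fin 10), K A → A.card = 4 → x ∉ A →
      ∃ a ∈ A, ∃ b ∈ A, a ≠ b ∧ ¬ K {x, a, b})
    (H3 : ∀ (A : Finset (Fin 10)) (a : Fin 10), K A → A.card = 4 → a ∈ A →
      ∃ x, x ∉ A ∧ K (insert x (A.erase a)))
    (H4 : ∀ A B : Finset (Fin 10), K A → K B → A.card = 4 → B.card = 4 → ¬ Disjoint A B)
    (H5 : ∃ A : Finset (Fin 10), A.card = 4 ∧ K A) : False := by
  obtain ⟨A, hA4, hA⟩ := H5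
  obtain ⟨a, t, hat, rfl, ht⟩ := Finset.card_eq_succ.1 hA4
  obtain ⟨b, c, d, hbc, hbd, hcd, rfl⟩ := Finset.card_eq_three.1 ht
  simp only [Finset.mem_insert, Finset.mem_singleton, not_or] at hat
  obtain ⟨hab, hac, had⟩ : a ≠ b ∧ a ≠ c ∧ a ≠ d := hat
  -- a twin for each element
  obtain ⟨xa, a1, a2, a3, a4, fa, na1, na2, na3⟩ :=
    tw H0 H1 H2 H3 a b c d hab hac had hbc hbd hcd hA
  obtain ⟨xb, b1, b2, b3, b4, fb, nb1, nb2, nb3⟩ :=
    tw H0 H1 H2 H3 b a c d hab.symm hbc hbd hac had hcd (by rw [set4_12]; exact hA)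
  obtain ⟨xc, c1, c2, c3, c4, fc, nc1, nc2, nc3⟩ :=
    tw H0 H1 H2 H3 c a b d hac.symm hbc.symm hcd hab had hbd (by rw [set4_12, set4_23]; exact hA)
  obtain ⟨xd, d1, d2, d3, d4, fd, nd1, nd2, nd3⟩ :=
    tw H0 H1 H2 H3 d a b c had.symm hbd.symm hcd.symm hab hac hbc
      (by rw [set4_12, set4_23, set4_34]; exact hA)
  -- the twins are distinct
  have hxab : xa ≠ xb := by
    rintro rfl
    exact na2 (f123 H0 fb)
  have hxac : xa ≠ xc := by
    rintro rfl
    exact na1 (f123 H0 fc)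
  have hxad : xa ≠ xd := by
    rintro rfl
    exact na1 (f123 H0 fd)
  have hxbc : xb ≠ xc := by
    rintro rfl
    exact nb1 (by rw [set3_23]; exact f123 H0 fc)
  have hxbd : xb ≠ xd := by
    rintro rfl
    exact nb1 (by rw [set3_23]; exact f123 H0 fd)
  have hxcd : xc ≠ xd := by
    rintro rfl
    exact nc1 (by rw [set3_23]; exact f124 H0 fd)
  -- the remaining two colours
  have hnod8 : [a, b, c, d, xa, xb, xc, xd].Nodup := by
    simp only [List.nodup_cons, List.mem_cons, List.not_mem_nil, or_false, not_or]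
    exact ⟨⟨hab, hac, had, a1.symm, b2.symm, c2.symm, d2.symm⟩,
      ⟨hbc, hbd, a2.symm, b1.symm, c3.symm, d3.symm⟩, ⟨hcd, a3.symm, b3.symm, c1.symm, d4.symm⟩,
      ⟨a4.symm, b4.symm, c4.symm, d1.symm⟩, ⟨hxab, hxac, hxad⟩, ⟨hxbc, hxbd⟩, hxcd,
      not_false, List.nodup_nil⟩
  obtain ⟨y, y', hnod, hall⟩ := rest hnod8 rfl
  have hconf : Conf K a b c d xa xb xc xd y y' := ⟨hnod, hall, hA, fa, fb, fc, fd⟩
  exact hconf.false H0 H1 H2 H3 H4

end P052.H8
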